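import Vale.Agent.P183.Defs
import Mathlib.Data.Finite.Prod
import Mathlib.Data.Finite.Card
import Mathlib.Data.Fintype.Card
import Mathlib.Tactic.Set
import Mathlib.Tactic.Push
import Mathlib.Data.Fintype.EquivFin
import Mathlib.Data.Fintype.Pi
import Mathlib.Data.Fintype.Quotient
import Mathlib.Data.Finset.Insert
import Mathlib.Order.BoundedOrder.Basic

/-! P183: representability as a lattice of equivalences closed under the maps preserving it. -/

namespace Vale.P183

/-- `f` maps related pairs to related pairs. -/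
def Pres {R : Type} (f : R → R) (r : Setoid R) : Prop := ∀ a b, r a b → r (f a) (f b)

/-- `e` identifies `L` with the lattice of equivalences preserved by all unary maps preserving `e '' L`. -/
def IsClosedRep {L R : Type} [LE L] (e : L ↪o Setoid R) : Prop :=
  ∀ r : Setoid R, (∀ f : R → R, (∀ l, Pres f (e l)) → Pres f r) → r ∈ Set.range e

/-- `L` has a closed representation on a finite set. -/
def Clo (L : Type) [LE L] : Prop :=
  ∃ (R : Type) (_ : Finite R) (_ : Nonempty R) (e : L ↪o Setoid R), IsClosedRep e

theorem finite_setoid (R : Type) [Finite R] : Finite (Setoid R) :=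
  Finite.of_injective (fun r : Setoid R => (r : R → R → Prop))
    (fun _ _ h => Setoid.eq_iff_rel_eq.2 h)

theorem exists_bot {L R : Type} [LE L] {e : L ↪o Setoid R} (hc : IsClosedRep e) :
    ∃ l, e l = ⊥ := by
  obtain ⟨l, hl⟩ := hc ⊥ (fun f _ a b h => congrArg f h)
  exact ⟨l, hl⟩

theorem exists_top {L R : Type} [LE L] {e : L ↪o Setoid R} (hc : IsClosedRep e) :
    ∃ l, e l = ⊤ := by
  obtain ⟨l, hl⟩ := hc ⊤ (fun f _ a b _ => trivial)
  exact ⟨l, hl⟩

/-- A closed system of equivalences above its least member gives a closed representation on the quotient. -/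
theorem clo_of_raw {L R : Type} [Preorder L] [Finite R] [Nonempty R] (e : L ↪o Setoid R) (l0 : L)
    (h0 : ∀ l, l0 ≤ l)
    (hc : ∀ r : Setoid R, e l0 ≤ r → (∀ f : R → R, (∀ l, Pres f (e l)) → Pres f r) →
      r ∈ Set.range e) : Clo L := by
  have hG : ∀ (l : L) (p : R), e l (Quotient.mk (e l0) p).out p := fun l p =>
    Setoid.le_def.1 (e.le_iff_le.2 (h0 l)) (Quotient.mk_out (s := e l0) p)
  have hmono : ∀ l l' : L,
      Setoid.comap (Quotient.out (s := e l0)) (e l) ≤ Setoid.comap (Quotient.out (s := e l0)) (e l') ↔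
        l ≤ l' := by
    intro l l'
    rw [← e.le_iff_le]
    constructor
    · intro h x y hxy
      exact (e l').trans' ((e l').symm' (hG l' x)) ((e l').trans'
        (h ((e l).trans' (hG l x) ((e l).trans' hxy ((e l).symm' (hG l y))))) (hG l' y))
    · intro h x y hxy
      exact h hxy
  refine ⟨Quotient (e l0), inferInstance, ⟨Quotient.mk (e l0) (Classical.arbitrary R)⟩,
    { toFun := fun l => Setoid.comap (Quotient.out (s := e l0)) (e l)
      inj' := fun l l' h => e.injective (le_antisymm (e.le_iff_le.2 ((hmono l l').1 h.le))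
        (e.le_iff_le.2 ((hmono l' l).1 h.ge)))
      map_rel_iff' := fun {l l'} => hmono l l' }, ?_⟩
  intro r hr
  have hle : e l0 ≤ Setoid.comap (Quotient.mk (e l0)) r := by
    intro x y h
    show r (Quotient.mk (e l0) x) (Quotient.mk (e l0) y)
    rw [Quotient.sound (s := e l0) h]
  obtain ⟨l, hl⟩ := hc (Setoid.comap (Quotient.mk (e l0)) r) hle (by
    intro f hf x y hxy
    have key := hr (fun q => Quotient.mk (e l0) (f q.out)) (by
      intro l p q hpq
      exact (e l).trans' (hG l _) ((e l).trans' (hf l _ _ hpq) ((e l).symm' (hG l _))))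
      _ _ hxy
    have hx : ∀ x, Quotient.mk (e l0) (f (Quotient.mk (e l0) x).out) = Quotient.mk (e l0) (f x) :=
      fun x => Quotient.sound (s := e l0) (hf l0 _ _ (hG l0 x))
    show r (Quotient.mk (e l0) (f x)) (Quotient.mk (e l0) (f y))
    rw [← hx x, ← hx y]
    exact key)
  refine ⟨l, Setoid.ext fun p q => ?_⟩
  show e l p.out q.out ↔ r p q
  rw [hl]
  show r (Quotient.mk (e l0) p.out) (Quotient.mk (e l0) q.out) ↔ r p q
  rw [Quotient.out_eq, Quotient.out_eq]

theorem clo_congr {L L' : Type} [LE L] [LE L'] (σ : L ≃o L') (h : Clo L) : Clo L' := by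
  obtain ⟨R, i1, i2, e, hc⟩ := h
  refine ⟨R, i1, i2, σ.symm.toOrderEmbedding.trans e, fun r hr => ?_⟩
  obtain ⟨l, hl⟩ := hc r (fun f hf => hr f (fun l' => hf _))
  exact ⟨σ l, by simp [hl]⟩

theorem Representable.clo {L : Type} [Preorder L] (h : Representable L) : Clo L := by
  classical
  obtain ⟨n, m, ar, op, ⟨φ⟩⟩ := h
  refine ⟨Fin (n + 1), inferInstance, inferInstance,
    φ.toOrderEmbedding.trans (OrderEmbedding.subtype _), fun r hr => ?_⟩
  suffices hcomp : ∀ i (x y : Fin (ar i) → Fin (n + 1)), (∀ k, r (x k) (y k)) → r (op i x) (op i y) by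
    exact ⟨φ.symm ⟨r, hcomp⟩, by simp⟩
  intro i x y hxy
  have step : ∀ s : Finset (Fin (ar i)), r (op i x) (op i (fun k => if k ∈ s then y k else x k)) := by
    intro s
    induction s using Finset.induction_on with
    | empty => simp
    | @insert k s hk ih =>
      refine r.trans' ih ?_
      set z : Fin (ar i) → Fin (n + 1) := fun k => if k ∈ s then y k else x k with hz
      have key := hr (fun v => op i (Function.update z k v)) (by
        intro l a b hab
        exact (φ l).2 i _ _ (fun k' => by
          by_cases hk' : k' = k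
          · subst hk'; simp only [Function.update_self]; exact hab
          · simp only [Function.update_of_ne hk']; exact (φ l).1.refl' _)) (x k) (y k) (hxy k)
      have h1 : Function.update z k (x k) = z := by
        rw [Function.update_eq_self_iff]; simp [hz, hk]
      have h2 : Function.update z k (y k) = fun k' => if k' ∈ insert k s then y k' else x k' := by
        funext k'
        by_cases hk' : k' = k
        · subst hk'; simp
        · simp [Function.update_of_ne hk', hz, hk']
      simpa [h1, h2] using key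
  simpa using step Finset.univ

theorem Clo.representable {L : Type} [Preorder L] (h : Clo L) : Representable L := by
  classical
  obtain ⟨R, hR, hne, e, hc⟩ := h
  obtain ⟨k, ⟨σ⟩⟩ := Finite.exists_equiv_fin R
  obtain ⟨n, rfl⟩ : ∃ n, k = n + 1 :=
    Nat.exists_eq_succ_of_ne_zero (fun h0 => by subst h0; exact (σ (Classical.arbitrary R)).elim0)
  let P := {f : R → R // ∀ l, Pres f (e l)}
  obtain ⟨m, ⟨τ⟩⟩ := Finite.exists_equiv_fin P
  let op : (i : Fin m) → (Fin 1 → Fin (n + 1)) → Fin (n + 1) :=
    fun i x => σ ((τ.symm i).1 (σ.symm (x 0)))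
  refine ⟨n, m, fun _ => 1, op, ⟨?_⟩⟩
  let Con := {r : Setoid (Fin (n + 1)) //
    ∀ (i : Fin m) (x y : Fin 1 → Fin (n + 1)), (∀ k, r (x k) (y k)) → r (op i x) (op i y)}
  let F : L → Con := fun l => ⟨Setoid.comap σ.symm (e l), fun i x y hxy => by
    show e l (σ.symm (σ _)) (σ.symm (σ _))
    simp only [Equiv.symm_apply_apply]
    exact (τ.symm i).2 l _ _ (hxy 0)⟩
  have hle : ∀ l l', F l ≤ F l' ↔ l ≤ l' := by
    intro l l'
    rw [← e.le_iff_le]
    constructor
    · intro h x y hxy
      have := @h (σ x) (σ y) (show e l (σ.symm (σ x)) (σ.symm (σ y)) by simpa using hxy)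
      change e l' (σ.symm (σ x)) (σ.symm (σ y)) at this
      simpa using this
    · intro h x y hxy
      exact h hxy
  have hinj : Function.Injective F := fun l l' h =>
    e.injective (le_antisymm (e.le_iff_le.2 ((hle l l').1 (le_of_eq h)))
      (e.le_iff_le.2 ((hle l' l).1 (le_of_eq h.symm))))
  have hsurj : Function.Surjective F := by
    rintro ⟨r, hr⟩
    obtain ⟨l, hl⟩ := hc (Setoid.comap σ r) (fun f hf a b hab => by
      have := hr (τ ⟨f, hf⟩) (fun _ => σ a) (fun _ => σ b) (fun _ => hab)
      change r (σ (f a)) (σ (f b))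
      simpa [op] using this)
    refine ⟨l, Subtype.ext (Setoid.ext fun a b => ?_)⟩
    show e l (σ.symm a) (σ.symm b) ↔ r a b
    rw [hl]
    show r (σ (σ.symm a)) (σ (σ.symm b)) ↔ r a b
    simp
  exact { toEquiv := Equiv.ofBijective F ⟨hinj, hsurj⟩, map_rel_iff' := hle _ _ }

theorem representable_iff {L : Type} [Preorder L] : Representable L ↔ Clo L :=
  ⟨Representable.clo, Clo.representable⟩

end Vale.P183
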