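import Mathlib.Data.Setoid.Basic
import Mathlib.Order.Hom.Basic
import Mathlib.Data.Finset.Lattice.Fold
import Mathlib.Order.Irreducible

/-! P183: definitions used in the statement. -/

namespace Vale.P183

/-- `L` is isomorphic to the whole congruence lattice of a finite (nonempty) algebra with finitely many finitary
operations. -/
def Representable (L : Type) [LE L] : Prop :=
  ∃ (n m : ℕ) (ar : Fin m → ℕ) (op : (i : Fin m) → (Fin (ar i) → Fin (n + 1)) → Fin (n + 1)),
    Nonempty (L ≃o {r : Setoid (Fin (n + 1)) //
      ∀ (i : Fin m) (x y : Fin (ar i) → Fin (n + 1)), (∀ k, r (x k) (y k)) → r (op i x) (op i y)})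

/-- Day doubling `K[C]` of a lower pseudo-interval `C` with least element `a`: the elements of `C` get two copies,
every other element keeps one (labelled `true` exactly when it lies above `a`), ordered componentwise. -/
abbrev LowerDoubled {K : Type} [LE K] (C : Set K) (a : K) : Type :=
  {p : K × Bool // (p.2 = true → a ≤ p.1) ∧ (a ≤ p.1 → p.1 ∉ C → p.2 = true)}

/-- Day doubling `K[C]` of an upper pseudo-interval `C` with greatest element `b`. -/
abbrev UpperDoubled {K : Type} [LE K] (C : Set K) (b : K) : Type :=
  {p : K × Bool // (p.2 = false → p.1 ≤ b) ∧ (p.1 ≤ b → p.1 ∉ C → p.2 = false)}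

/-- Lower boundedness (no D-cycle): join-irreducibles can be ranked so that every nontrivial join cover of one
refines to a join cover by join-irreducibles of smaller rank. -/
def IsLowerBounded (L : Type) [Lattice L] [OrderBot L] : Prop :=
  ∃ rank : L → ℕ, ∀ p : L, SupIrred p → ∀ U : Finset L, p ≤ U.sup id → (¬ ∃ u ∈ U, p ≤ u) →
    ∃ V : Finset L, p ≤ V.sup id ∧ ∀ v ∈ V, SupIrred v ∧ rank v < rank p ∧ ∃ u ∈ U, v ≤ u

end Vale.P183
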