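import Mathlib.Data.List.GetD
import Vale.Agent.P183.Basic
import Mathlib.Data.Fintype.Prod
import Mathlib.Data.Fintype.Sigma
import Mathlib.Data.Fintype.Sum
import Mathlib.Data.Finset.Dedup

/-! P183: gluing one gadget doubles a lower pseudo-interval. -/

namespace Vale.P183.Gadget

open Relation

variable {L A : Type} [PartialOrder L]

/-- The indices of the paths: the elements above `a` outside `C`. -/
abbrev MSet (C : Set L) (a : L) : Type := {m : L // a ≤ m ∧ m ∉ C}

variable [Fintype A] (e : L ↪o Setoid A) (w : A) (C : Set L) (a : L)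

/-- The nontrivial pairs related by `e m`. -/
noncomputable def pairs (m : L) : List (A × A) := by
  classical exact (Finset.univ.filter (fun p : A × A => p.1 ≠ p.2 ∧ e m p.1 p.2)).toList

/-- Number of segments on the path of `m`. -/
noncomputable def len (m : L) : ℕ := 6 * (pairs e m).length

/-- Glue pair of the `i`-th segment: each pair forward and backward, three times over. -/
noncomputable def gpair (m : L) (i : ℕ) : A × A :=
  if i % 2 = 0 then (pairs e m).getD (i % (2 * (pairs e m).length) / 2) (w, w)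
  else ((pairs e m).getD (i % (2 * (pairs e m).length) / 2) (w, w)).swap

/-- Points before gluing. -/
inductive Pt : Type
  | base (z : A)
  | top
  | seg (m : MSet C a) (i : Fin (len e m.1)) (z : A)

/-- The vertex `v` of the path of `m`. -/
noncomputable def vert (m : MSet C a) (v : ℕ) : Pt e C a :=
  if h : v < len e m.1 then .seg m ⟨v, h⟩ (gpair e w m.1 v).1 else .top

/-- Generators of the equivalence belonging to `(x, f)`. -/
inductive Gen (x : L) (f : Bool) : Pt e C a → Pt e C a → Prop
  | inBase {z z' : A} : e x z z' → Gen x f (.base z) (.base z')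
  | inSeg (m : MSet C a) (i : Fin (len e m.1)) {z z' : A} :
      e x z z' → Gen x f (.seg m i z) (.seg m i z')
  | glue (m : MSet C a) (i : Fin (len e m.1)) :
      Gen x f (.seg m i (gpair e w m.1 i).2) (vert e w C a m (i.1 + 1))
  | start (m : MSet C a) : Gen x f (.base w) (vert e w C a m 0)
  | flag : f = true → Gen x f (.base w) .top

/-- The equivalence belonging to an element of the doubled lattice. -/
def theta (d : LowerDoubled C a) : Setoid (Pt e C a) := EqvGen.setoid (Gen e w C a d.1.1 d.1.2)

section pairs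

variable {e w}

theorem mem_pairs {m : L} {p : A × A} : p ∈ pairs e m ↔ p.1 ≠ p.2 ∧ e m p.1 p.2 := by
  classical simp [pairs]

theorem rel_gpair (m : L) (i : ℕ) : e m (gpair e w m i).1 (gpair e w m i).2 := by
  have h : ∀ j, e m ((pairs e m).getD j (w, w)).1 ((pairs e m).getD j (w, w)).2 := fun j => by
    by_cases hj : j < (pairs e m).length
    · rw [List.getD_eq_getElem _ _ hj]; exact (mem_pairs.1 (List.getElem_mem hj)).2
    · rw [List.getD_eq_default _ _ (not_lt.1 hj)]
  unfold gpair
  split
  · exact h _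
  · exact (e m).symm' (h _)

theorem exists_index {m : L} {p : A × A} (hp : p.1 ≠ p.2) (he : e m p.1 p.2) :
    ∃ i < len e m, gpair e w m i = p := by
  obtain ⟨j, hj, hje⟩ := List.getElem_of_mem (mem_pairs.2 ⟨hp, he⟩ : p ∈ pairs e m)
  refine ⟨2 * j, by unfold len; omega, ?_⟩
  unfold gpair
  rw [if_pos (by omega), Nat.mod_eq_of_lt (by omega), show 2 * j / 2 = j by omega,
    List.getD_eq_getElem _ _ hj, hje]

theorem gpair_ne {m : L} (hlen : 0 < len e m) (i : ℕ) :
    (gpair e w m i).1 ≠ (gpair e w m i).2 := by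
  have hk : 0 < (pairs e m).length := by unfold len at hlen; omega
  have hj : i % (2 * (pairs e m).length) / 2 < (pairs e m).length := by
    have := Nat.mod_lt i (show 0 < 2 * (pairs e m).length by omega)
    omega
  have h := (mem_pairs.1 (List.getElem_mem hj)).1
  unfold gpair
  rw [List.getD_eq_getElem _ _ hj]
  split
  · exact h
  · exact h.symm

/-- The segments with the same pair (`b = 0`) or the reversed pair (`b = 1`) as segment `i`. -/
noncomputable def copyIdx (e : L ↪o Setoid A) (m : L) (i : ℕ) (b : Bool) (c : ℕ) : ℕ :=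
  2 * (pairs e m).length * c + (if b = (i % 2 == 0) then i % (2 * (pairs e m).length) / 2 * 2 + 1
    else i % (2 * (pairs e m).length) / 2 * 2)

theorem copyIdx_spec {m : L} {i : ℕ} (hi : i < len e m) {c : ℕ} (hc : c < 3) (b : Bool) :
    2 * (pairs e m).length * c ≤ copyIdx e m i b c ∧
      copyIdx e m i b c < 2 * (pairs e m).length * (c + 1) ∧ copyIdx e m i b c < len e m ∧
      gpair e w m (copyIdx e m i b c) = (if b then (gpair e w m i).swap else gpair e w m i) := by
  set k := (pairs e m).length with hk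
  have hk0 : 0 < k := by unfold len at hi; omega
  set j := i % (2 * k) / 2 with hj
  have hr : i % (2 * k) < 2 * k := Nat.mod_lt _ (by omega)
  have hjk : j < k := by omega
  have hB : copyIdx e m i b c = 2 * k * c + if b = (i % 2 == 0) then j * 2 + 1 else j * 2 := rfl
  have hub : (if b = (i % 2 == 0) then j * 2 + 1 else j * 2) < 2 * k := by split <;> omega
  have hlen : len e m = 2 * k * 3 := by unfold len; omega
  have h3 : 2 * k * (c + 1) ≤ 2 * k * 3 := Nat.mul_le_mul_left _ (by omega)
  have hub' : copyIdx e m i b c < 2 * k * (c + 1) := by rw [hB, Nat.mul_add (2 * k) c 1, Nat.mul_one]; omega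
  refine ⟨by rw [hB]; omega, hub', by omega, ?_⟩
  have hmod : copyIdx e m i b c % (2 * k) = if b = (i % 2 == 0) then j * 2 + 1 else j * 2 := by
    rw [hB, Nat.mul_add_mod, Nat.mod_eq_of_lt hub]
  have hpar : copyIdx e m i b c % 2 = if b = (i % 2 == 0) then 1 else 0 := by
    rw [hB, Nat.mul_assoc, Nat.mul_add_mod]; split <;> omega
  unfold gpair
  rw [← hk, hmod, hpar, ← hj]
  rcases Nat.mod_two_eq_zero_or_one i with h | h <;> cases b <;>
    simp [h, show (j * 2 + 1) / 2 = j by omega]

end pairs

section maps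

variable {e w C a}

/-- Retraction onto the base. -/
def retr (w : A) : Pt e C a → A
  | .base z => z
  | _ => w

/-- Fold the segments `i < l` of one path, whose glue pairs are reversed to each other, onto the base. -/
noncomputable def zoom (e : L ↪o Setoid A) (w : A) (C : Set L) (a : L) (m : MSet C a) (i l : ℕ) :
    Pt e C a → A
  | .seg m' h z => by classical exact
      if m' = m then
        (if h.1 = i ∨ h.1 = l then z
          else if i < h.1 ∧ h.1 < l then (gpair e w m.1 i).2 else (gpair e w m.1 i).1)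
      else (gpair e w m.1 i).1
  | _ => (gpair e w m.1 i).1

/-- Send the edge `w — top` to `s — t`, along chosen segments `idx`. -/
def chain (idx : MSet C a → ℕ) (s t : A) : Pt e C a → A
  | .base _ => s
  | .top => t
  | .seg m h z => if h.1 < idx m then s else if h.1 = idx m then z else t

theorem rel_of_gen {d : LowerDoubled C a} {B : Type} (r : Setoid B) (F : Pt e C a → B)
    (h : ∀ p q, Gen e w C a d.1.1 d.1.2 p q → r (F p) (F q)) {p q : Pt e C a}
    (hpq : theta e w C a d p q) : r (F p) (F q) :=
  Setoid.eqvGen_le (s := Setoid.comap F r) h hpq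

theorem theta_inBase (d : LowerDoubled C a) {z z' : A} (h : e d.1.1 z z') :
    theta e w C a d (.base z) (.base z') := EqvGen.rel _ _ (.inBase h)

theorem theta_inSeg (d : LowerDoubled C a) (m : MSet C a) (i : Fin (len e m.1)) {z z' : A}
    (h : e d.1.1 z z') : theta e w C a d (.seg m i z) (.seg m i z') := EqvGen.rel _ _ (.inSeg m i h)

theorem vert_of_lt (m : MSet C a) {v : ℕ} (h : v < len e m.1) :
    vert e w C a m v = .seg m ⟨v, h⟩ (gpair e w m.1 v).1 := dif_pos h

theorem vert_of_ge (m : MSet C a) {v : ℕ} (h : len e m.1 ≤ v) : vert e w C a m v = .top :=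
  dif_neg (not_lt.2 h)

theorem retr_gen (x : L) (f : Bool) {p q : Pt e C a} (h : Gen e w C a x f p q) :
    e x (retr w p) (retr w q) := by
  have hv : ∀ m v, retr w (vert e w C a m v) = w := fun m v => by unfold vert; split <;> rfl
  cases h with
  | inBase h => exact h
  | inSeg m i h => exact (e x).refl' w
  | glue m i => rw [hv]; exact (e x).refl' w
  | start m => rw [hv]; exact (e x).refl' w
  | flag h => exact (e x).refl' w

theorem zoom_vert {m : MSet C a} {i l : ℕ} (hil : i < l) (hl : l < len e m.1)
    (hg : gpair e w m.1 l = (gpair e w m.1 i).swap) (m' : MSet C a) {v : ℕ} :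
    (m' = m → zoom e w C a m i l (vert e w C a m' v) =
      if i < v ∧ v ≤ l then (gpair e w m.1 i).2 else (gpair e w m.1 i).1) ∧
    (m' ≠ m → zoom e w C a m i l (vert e w C a m' v) = (gpair e w m.1 i).1) := by
  refine ⟨?_, fun hne => ?_⟩
  · rintro rfl
    rcases Nat.lt_or_ge v (len e m'.1) with h | h
    · rw [vert_of_lt m' h]
      simp only [zoom, if_pos]
      by_cases h1 : v = i
      · subst h1; simp
      by_cases h2 : v = l
      · subst h2; simp [hil, hg]
      have : (i < v ∧ v < l) ↔ (i < v ∧ v ≤ l) := by omega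
      simp [h1, h2, this]
    · rw [vert_of_ge m' h, if_neg (by omega)]; rfl
  · rcases Nat.lt_or_ge v (len e m'.1) with h | h
    · rw [vert_of_lt m' h]; simp only [zoom, if_neg hne]
    · rw [vert_of_ge m' h]; rfl

theorem zoom_gen (x : L) (f : Bool) {m : MSet C a} {i l : ℕ} (hil : i < l) (hl : l < len e m.1)
    (hg : gpair e w m.1 l = (gpair e w m.1 i).swap) {p q : Pt e C a}
    (h : Gen e w C a x f p q) : e x (zoom e w C a m i l p) (zoom e w C a m i l q) := by
  cases h with
  | inBase h => exact (e x).refl' _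
  | inSeg m' j h =>
    simp only [zoom]
    split_ifs <;> first | exact h | exact (e x).refl' _
  | glue m' j =>
    by_cases hm : m' = m
    · subst hm
      rw [(zoom_vert hil hl hg m').1 rfl]
      simp only [zoom, if_pos]
      by_cases h1 : j.1 = i
      · rw [if_pos (Or.inl h1), if_pos (by omega), h1]
      by_cases h2 : j.1 = l
      · rw [if_pos (Or.inr h2), if_neg (by omega), h2, hg]; exact (e x).refl' _
      have : (i < j.1 + 1 ∧ j.1 + 1 ≤ l) ↔ (i < j.1 ∧ j.1 < l) := by omega
      rw [if_neg (by omega)]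
      simp only [this]
      exact (e x).refl' _
    · rw [(zoom_vert hil hl hg m').2 hm]
      simp only [zoom, if_neg hm]
      exact (e x).refl' _
  | start m' =>
    by_cases hm : m' = m
    · rw [(zoom_vert hil hl hg m').1 hm, if_neg (by omega)]; exact (e x).refl' _
    · rw [(zoom_vert hil hl hg m').2 hm]; exact (e x).refl' _
  | flag h => exact (e x).refl' _

theorem chain_gen (d : LowerDoubled C a) {idx : MSet C a → ℕ} {s t : A} (hst : e a s t)
    (hidx : ∀ m : MSet C a, idx m < len e m.1 ∧ gpair e w m.1 (idx m) = (s, t)) {p q : Pt e C a}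
    (h : Gen e w C a d.1.1 d.1.2 p q) : e d.1.1 (chain idx s t p) (chain idx s t q) := by
  have hv : ∀ m v, chain idx s t (vert e w C a m v) = if v ≤ idx m then s else t := fun m v => by
    rcases Nat.lt_or_ge v (len e m.1) with h | h
    · rw [vert_of_lt m h]
      simp only [chain]
      rcases lt_trichotomy v (idx m) with h1 | h1 | h1
      · simp [h1, h1.le]
      · subst h1; simp [(hidx m).2]
      · rw [if_neg (by omega), if_neg (by omega), if_neg (by omega)]
    · rw [vert_of_ge m h, if_neg (by have := (hidx m).1; omega)]; rfl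
  cases h with
  | inBase h => exact (e _).refl' _
  | inSeg m j h =>
    simp only [chain]
    split_ifs <;> first | exact h | exact (e _).refl' _
  | glue m j =>
    rw [hv]
    simp only [chain]
    rcases lt_trichotomy j.1 (idx m) with h1 | h1 | h1
    · rw [if_pos h1, if_pos (by omega)]
    · rw [if_neg (by omega), if_pos h1, if_neg (by omega), h1, (hidx m).2]
    · rw [if_neg (by omega), if_neg (by omega), if_neg (by omega)]
  | start m => rw [hv, if_pos (Nat.zero_le _)]; exact (e _).refl' _
  | flag h => exact Setoid.le_def.1 (e.le_iff_le.2 (d.2.1 h)) hst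

end maps

section separation

variable {e w C a}

/-- The segments whose glue pair is not related by `x`. -/
def Cut (e : L ↪o Setoid A) (w : A) (x m : L) (i : ℕ) : Prop :=
  i < len e m ∧ ¬ e x (gpair e w m i).1 (gpair e w m i).2

theorem exists_fold {x m : L} {v u : ℕ} (hin : ∃ i, Cut e w x m i ∧ v ≤ i ∧ i < u)
    (hout : ∃ h, Cut e w x m h ∧ (h < v ∨ u ≤ h)) :
    ∃ i l, i < l ∧ l < len e m ∧ Cut e w x m i ∧ gpair e w m l = (gpair e w m i).swap ∧
      ¬ ((i < v ∧ v ≤ l) ↔ (i < u ∧ u ≤ l)) := by
  obtain ⟨i, ⟨hi, hix⟩, hvi, hiu⟩ := hin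
  obtain ⟨h, ⟨hh, hhx⟩, hout⟩ := hout
  -- it suffices to find a cut segment inside and a reversed one outside
  have wrap : ∀ p q, p < len e m → q < len e m → ¬ e x (gpair e w m p).1 (gpair e w m p).2 →
      gpair e w m q = (gpair e w m p).swap → (v ≤ p ∧ p < u) → (q < v ∨ u ≤ q) →
      ∃ i l, i < l ∧ l < len e m ∧ Cut e w x m i ∧ gpair e w m l = (gpair e w m i).swap ∧
        ¬ ((i < v ∧ v ≤ l) ↔ (i < u ∧ u ≤ l)) := by
    intro p q hp hq hpx hpq hin hout
    rcases hout with ho | ho
    · exact ⟨q, p, by omega, hp, ⟨hq, fun hc => hpx ((e x).symm' (by simpa [hpq] using hc))⟩,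
        by simp [hpq], by omega⟩
    · exact ⟨p, q, by omega, hq, ⟨hp, hpx⟩, hpq, by omega⟩
  by_cases hP : ∃ c < 3, copyIdx e m i true c < v ∨ u ≤ copyIdx e m i true c
  · obtain ⟨c, hc, ho⟩ := hP
    obtain ⟨-, -, hl, hg⟩ := copyIdx_spec (w := w) hi hc true
    exact wrap i _ hi hl hix (by simpa using hg) ⟨hvi, hiu⟩ ho
  by_cases hQ : ∃ c < 3, copyIdx e m i false c < v ∨ u ≤ copyIdx e m i false c
  · obtain ⟨c, hc, ho⟩ := hQ
    obtain ⟨-, -, hl, hg⟩ := copyIdx_spec (w := w) hi hc false
    obtain ⟨-, -, hl0, hg0⟩ := copyIdx_spec (w := w) hi (show 0 < 3 by omega) true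
    simp only [if_true, Bool.false_eq_true, if_false] at hg hg0
    refine wrap _ _ hl0 hl (fun hc' => hix ((e x).symm' (by simpa [hg0] using hc'))) ?_ ?_ ho
    · rw [hg, hg0, Prod.swap_swap]
    · have : ¬(copyIdx e m i true 0 < v ∨ u ≤ copyIdx e m i true 0) :=
        fun hh => hP ⟨0, by omega, hh⟩
      omega
  have h0 : ¬(copyIdx e m i false 0 < v ∨ u ≤ copyIdx e m i false 0) :=
    fun hh => hQ ⟨0, by omega, hh⟩
  have h2 : ¬(copyIdx e m i false 2 < v ∨ u ≤ copyIdx e m i false 2) :=
    fun hh => hQ ⟨2, by omega, hh⟩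
  obtain ⟨-, b0, -, -⟩ := copyIdx_spec (w := w) hi (show 0 < 3 by omega) false
  obtain ⟨b2, -, -, -⟩ := copyIdx_spec (w := w) hi (show 2 < 3 by omega) false
  obtain ⟨c1, c2, hl1, hg1⟩ := copyIdx_spec (w := w) hh (show 1 < 3 by omega) true
  simp only [if_true] at hg1
  refine wrap _ h hl1 hh (fun hc' => hhx ((e x).symm' (by simpa [hg1] using hc'))) ?_ ?_ hout
  · rw [hg1, Prod.swap_swap]
  · omega

end separation

section main

variable {e w C a}

/-- Both ends are cut off from vertex `v` of the path of `m`. -/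
def Mid (e : L ↪o Setoid A) (w : A) (x m : L) (v : ℕ) : Prop :=
  (∃ i, Cut e w x m i ∧ i < v) ∧ ∃ i, Cut e w x m i ∧ v ≤ i

theorem theta_vert (d : LowerDoubled C a) (m : MSet C a) {v u : ℕ} (hvu : v ≤ u) (hu : u ≤ len e m.1)
    (h : ¬ ∃ i, Cut e w d.1.1 m.1 i ∧ v ≤ i ∧ i < u) :
    theta e w C a d (vert e w C a m v) (vert e w C a m u) := by
  induction u, hvu using Nat.le_induction with
  | base => exact Setoid.refl' _ _
  | succ u hvu ih =>
    refine Setoid.trans' _ (ih (by omega) fun ⟨i, h1, h2, h3⟩ => h ⟨i, h1, h2, by omega⟩) ?_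
    rw [vert_of_lt m (show u < len e m.1 by omega)]
    refine Setoid.trans' _ (theta_inSeg d m _ ?_) (EqvGen.rel _ _ (.glue m _))
    by_contra hc
    exact h ⟨u, ⟨by omega, hc⟩, hvu, by omega⟩

theorem theta_start (d : LowerDoubled C a) (m : MSet C a) :
    theta e w C a d (.base w) (vert e w C a m 0) := EqvGen.rel _ _ (.start m)

theorem theta_retr (d : LowerDoubled C a) {p q : Pt e C a} (h : theta e w C a d p q) :
    e d.1.1 (retr w p) (retr w q) :=
  rel_of_gen (e d.1.1) (retr w) (fun _ _ => retr_gen _ _) h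

/-- A map into the base that sends generators to related pairs preserves every equivalence. -/
theorem pres_base {F : Pt e C a → A}
    (h : ∀ (d : LowerDoubled C a) p q, Gen e w C a d.1.1 d.1.2 p q → e d.1.1 (F p) (F q))
    (d : LowerDoubled C a) : Pres (fun p => Pt.base (F p)) (theta e w C a d) :=
  fun _ _ hpq => theta_inBase d (rel_of_gen _ F (h d) hpq)

theorem not_flag_sep (d : LowerDoubled C a)
    (hdown : ∀ x y, a ≤ x → x ≤ y → y ∈ C → x ∈ C) (hf : d.1.2 = false) :
    ¬ theta e w C a d (.base w) .top := by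
  have hcut : ∀ m : MSet C a, ∃ i, Cut e w d.1.1 m.1 i := by
    intro m
    by_contra hno
    push Not at hno
    have hmx : m.1 ≤ d.1.1 := by
      rw [← e.le_iff_le]
      intro s t hst
      by_cases hne : s = t
      · subst hne; exact Setoid.refl' _ _
      · obtain ⟨i, hi, hg⟩ := exists_index (w := w) (p := (s, t)) hne hst
        by_contra hc
        exact hno i ⟨hi, by rw [hg]; exact hc⟩
    have hC : d.1.1 ∈ C := by
      by_contra hC
      exact absurd (d.2.2 (le_trans m.2.1 hmx) hC) (by simp [hf])
    exact m.2.2 (hdown _ _ m.2.1 hmx hC)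
  let φ : Pt e C a → Prop := fun p => match p with
    | .base _ => True
    | .top => False
    | .seg m i z => (∀ j < i.1, ¬ Cut e w d.1.1 m.1 j) ∧ e d.1.1 (gpair e w m.1 i).1 z
  have hv : ∀ m v, v ≤ len e m.1 →
      (φ (vert e w C a m v) ↔ ∀ j < v, ¬ Cut e w d.1.1 m.1 j) := by
    intro m v hv
    rcases Nat.lt_or_ge v (len e m.1) with h | h
    · rw [vert_of_lt m h]
      exact ⟨fun h => h.1, fun h => ⟨h, Setoid.refl' _ _⟩⟩
    · rw [vert_of_ge m h]
      obtain ⟨i, hi⟩ := hcut m
      exact ⟨False.elim, fun h' => h' i (by have := hi.1; omega) hi⟩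
  intro htop
  have : Setoid.ker φ (.base w) .top := by
    refine rel_of_gen (Setoid.ker φ) id (fun p q h => ?_) htop
    show φ p = φ q
    apply propext
    cases h with
    | inBase h => exact Iff.rfl
    | inSeg m i h =>
      exact and_congr_right fun _ => ⟨fun h' => Setoid.trans' _ h' h,
        fun h' => Setoid.trans' _ h' (Setoid.symm' _ h)⟩
    | glue m i =>
      rw [hv m (i.1 + 1) i.2]
      constructor
      · rintro ⟨h1, h2⟩ j hj hc
        rcases Nat.lt_succ_iff_lt_or_eq.1 hj with h | h
        · exact h1 j h hc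
        · subst h; exact hc.2 h2
      · intro h
        refine ⟨fun j hj => h j (by omega), ?_⟩
        by_contra hc
        exact h i.1 (by omega) ⟨i.2, hc⟩
    | start m => rw [hv m 0 (Nat.zero_le _)]; exact ⟨fun _ j hj => absurd hj (by omega), fun _ => trivial⟩
    | flag h => simp [hf] at h
  exact (cast this trivial : φ .top)

theorem theta_le_iff (hdown : ∀ x y, a ≤ x → x ≤ y → y ∈ C → x ∈ C) (d d' : LowerDoubled C a) :
    theta e w C a d ≤ theta e w C a d' ↔ d ≤ d' := by
  constructor
  · intro h
    refine ⟨e.le_iff_le.1 fun s t hst => theta_retr d' (h (theta_inBase d hst)), ?_⟩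
    cases hd : d.1.2
    · exact Bool.false_le _
    · cases hd' : d'.1.2
      · exact absurd (h (EqvGen.rel _ _ (.flag hd))) (not_flag_sep d' hdown hd')
      · exact le_rfl
  · rintro ⟨hx, hf⟩
    refine Setoid.eqvGen_le (s := theta e w C a d') fun p q h => ?_
    cases h with
    | inBase h => exact theta_inBase d' (e.le_iff_le.2 hx h)
    | inSeg m i h => exact theta_inSeg d' m i (e.le_iff_le.2 hx h)
    | glue m i => exact EqvGen.rel _ _ (.glue m i)
    | start m => exact EqvGen.rel _ _ (.start m)
    | flag h => exact EqvGen.rel _ _ (.flag (by rw [h] at hf; exact le_antisymm (Bool.le_true _) hf))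

end main

end Vale.P183.Gadget
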