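import Mathlib.Data.Finite.Sigma
import Mathlib.Data.Finite.Sum
import Vale.Agent.P183.Gadget

/-! P183: every invariant equivalence of the gadget comes from the doubled lattice. -/

namespace Vale.P183.Gadget

open Relation

variable {L A : Type} [PartialOrder L] [Fintype A] {e : L ↪o Setoid A} {w : A} {C : Set L} {a : L}

instance [Finite L] : Finite (Pt e C a) :=
  Finite.of_injective
    (fun p => match p with
      | .base z => (Sum.inl (Sum.inl z) : (A ⊕ Unit) ⊕ ((Σ m : MSet C a, Fin (len e m.1)) × A))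
      | .top => Sum.inl (Sum.inr ())
      | .seg m i z => Sum.inr (⟨m, i⟩, z))
    (by
      intro p q h
      cases p <;> cases q <;> simp_all
      )

section

variable {d : LowerDoubled C a} {r : Setoid (Pt e C a)}
  (hbase : ∀ z z' : A, r (.base z) (.base z') ↔ e d.1.1 z z')
  (hinv : ∀ F : Pt e C a → A,
    (∀ (d : LowerDoubled C a) p q, Gen e w C a d.1.1 d.1.2 p q → e d.1.1 (F p) (F q)) →
      Pres (fun p => Pt.base (F p)) r)
  (hflag : r (.base w) .top → d.1.2 = true)
  (hle : theta e w C a d ≤ r)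

include hbase hinv in
theorem zoom_rel {m : MSet C a} {i l : ℕ} (hil : i < l) (hl : l < len e m.1)
    (hg : gpair e w m.1 l = (gpair e w m.1 i).swap) {p q : Pt e C a} (h : r p q) :
    e d.1.1 (zoom e w C a m i l p) (zoom e w C a m i l q) :=
  (hbase _ _).1 (hinv (zoom e w C a m i l) (fun _ _ _ => zoom_gen _ _ hil hl hg) p q h)

include hbase hinv in
theorem retr_rel {p q : Pt e C a} (h : r p q) : e d.1.1 (retr w p) (retr w q) :=
  (hbase _ _).1 (hinv (retr w) (fun _ _ _ => retr_gen _ _) p q h)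

include hbase hinv in
/-- The point `q` sees the fold `i, l` as the unrelated endpoint `z`. -/
theorem interior {m : MSet C a} {i : Fin (len e m.1)} {z : A}
    (h1 : ¬ e d.1.1 (gpair e w m.1 i).1 z) (h2 : ¬ e d.1.1 (gpair e w m.1 i).2 z)
    {q : Pt e C a} (h : r (.seg m i z) q) : theta e w C a d (.seg m i z) q := by
  have key : ∀ l, l < len e m.1 → l ≠ i.1 → gpair e w m.1 l = (gpair e w m.1 i).swap →
      ∃ (j : Fin (len e m.1)) (z' : A), q = .seg m j z' ∧ (j.1 = i.1 ∨ j.1 = l) ∧ e d.1.1 z z' := by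
    intro l hl hne hg
    have hcases : ∀ p₁ p₂, p₁ < p₂ → (p₁ = i.1 ∧ p₂ = l ∨ p₁ = l ∧ p₂ = i.1) →
        ∃ (j : Fin (len e m.1)) (z' : A),
          q = .seg m j z' ∧ (j.1 = i.1 ∨ j.1 = l) ∧ e d.1.1 z z' := by
      intro p₁ p₂ hlt hp
      have hp₂ : p₂ < len e m.1 := by
        have := i.2
        omega
      have hswap : gpair e w m.1 p₂ = (gpair e w m.1 p₁).swap := by
        rcases hp with ⟨rfl, rfl⟩ | ⟨rfl, rfl⟩
        · exact hg
        · rw [hg, Prod.swap_swap]
      have hn : ¬ e d.1.1 z (gpair e w m.1 p₁).1 ∧ ¬ e d.1.1 z (gpair e w m.1 p₁).2 := by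
        rcases hp with ⟨rfl, rfl⟩ | ⟨rfl, rfl⟩
        · exact ⟨fun hc => h1 (Setoid.symm' _ hc), fun hc => h2 (Setoid.symm' _ hc)⟩
        · rw [hg]; exact ⟨fun hc => h2 (Setoid.symm' _ hc), fun hc => h1 (Setoid.symm' _ hc)⟩
      have hz := zoom_rel hbase hinv hlt hp₂ hswap h
      have hl : zoom e w C a m p₁ p₂ (.seg m i z) = z := by
        simp only [zoom, if_pos]
        rw [if_pos (by omega)]
      rw [hl] at hz
      cases q with
      | base => exact absurd hz hn.1
      | top => exact absurd hz hn.1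
      | seg m' j z' =>
        simp only [zoom] at hz
        split_ifs at hz with hm hj hj'
        · subst hm; exact ⟨j, z', rfl, by omega, hz⟩
        · exact absurd hz hn.2
        · exact absurd hz hn.1
        · exact absurd hz hn.1
    rcases Nat.lt_or_gt_of_ne hne with hlt | hlt
    · exact hcases l i.1 hlt (Or.inr ⟨rfl, rfl⟩)
    · exact hcases i.1 l hlt (Or.inl ⟨rfl, rfl⟩)
  obtain ⟨a0, b0, l0, g0⟩ := copyIdx_spec (w := w) i.2 (show 0 < 3 by omega) true
  obtain ⟨a1, b1, l1, g1⟩ := copyIdx_spec (w := w) i.2 (show 1 < 3 by omega) true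
  simp only [if_true] at g0 g1
  have hd0 : copyIdx e m.1 i true 0 ≠ i.1 := fun hc => gpair_ne (w := w)
    (lt_of_le_of_lt (Nat.zero_le _) i.2) i.1 (by rw [hc] at g0; exact congrArg Prod.fst g0)
  have hd1 : copyIdx e m.1 i true 1 ≠ i.1 := fun hc => gpair_ne (w := w)
    (lt_of_le_of_lt (Nat.zero_le _) i.2) i.1 (by rw [hc] at g1; exact congrArg Prod.fst g1)
  obtain ⟨j, z', rfl, hj, hz⟩ := key _ l0 hd0 g0
  obtain ⟨j', z'', hq, hj', -⟩ := key _ l1 hd1 g1
  injection hq with _ hjj _
  have hji : j = i := by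
    have := congrArg Fin.val (eq_of_heq (by simpa using hjj))
    exact Fin.ext (by omega)
  subst hji
  exact theta_inSeg d m _ hz

include hbase hinv in
theorem zoom_sep {m : MSet C a} {i l : ℕ} (hil : i < l) (hl : l < len e m.1)
    (hc : Cut e w d.1.1 m.1 i) (hg : gpair e w m.1 l = (gpair e w m.1 i).swap) {p q : Pt e C a}
    (hp : zoom e w C a m i l p = (gpair e w m.1 i).2) (hq : zoom e w C a m i l q = (gpair e w m.1 i).1)
    (h : r p q) : False := by
  have := zoom_rel hbase hinv hil hl hg h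
  rw [hp, hq] at this
  exact hc.2 (Setoid.symm' _ this)

include hbase hinv hflag hle in
theorem path_rel {m : MSet C a} {v u : ℕ} (hvu : v ≤ u) (hu : u ≤ len e m.1)
    (h : r (vert e w C a m v) (vert e w C a m u)) :
    theta e w C a d (vert e w C a m v) (vert e w C a m u) := by
  by_cases hin : ∃ i, Cut e w d.1.1 m.1 i ∧ v ≤ i ∧ i < u
  · by_cases hout : ∃ j, Cut e w d.1.1 m.1 j ∧ (j < v ∨ u ≤ j)
    · obtain ⟨i, l, hil, hl, hc, hg, hs⟩ := exists_fold hin hout
      exfalso
      by_cases hv : i < v ∧ v ≤ l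
      · refine zoom_sep hbase hinv hil hl hc hg ?_ ?_ h
        · rw [(zoom_vert hil hl hg m).1 rfl, if_pos hv]
        · rw [(zoom_vert hil hl hg m).1 rfl, if_neg (fun hu' => hs (iff_of_true hv hu'))]
      · refine zoom_sep hbase hinv hil hl hc hg ?_ ?_ (Setoid.symm' _ h)
        · rw [(zoom_vert hil hl hg m).1 rfl, if_pos (by_contra fun hu' => hs (iff_of_false hv hu'))]
        · rw [(zoom_vert hil hl hg m).1 rfl, if_neg hv]
    · have hw : theta e w C a d (.base w) (vert e w C a m v) := Setoid.trans' _ (theta_start d m)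
        (theta_vert d m (Nat.zero_le v) (le_trans hvu hu)
          fun ⟨j, hj, _, hjv⟩ => hout ⟨j, hj, Or.inl hjv⟩)
      have ht : theta e w C a d (vert e w C a m u) .top := by
        have := theta_vert d m hu le_rfl fun ⟨j, hj, huj, _⟩ => hout ⟨j, hj, Or.inr huj⟩
        rwa [vert_of_ge m le_rfl] at this
      have hf : d.1.2 = true := hflag (r.trans' (hle hw) (r.trans' h (hle ht)))
      exact Setoid.trans' _ (Setoid.symm' _ hw)
        (Setoid.trans' _ (EqvGen.rel _ _ (.flag hf)) (Setoid.symm' _ ht))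
  · exact theta_vert d m hvu hu hin

include hbase hinv in
/-- A vertex related to a point outside its path is glued to one of the two ends. -/
theorem outside {m : MSet C a} {v : ℕ} (hv : v ≤ len e m.1) {q : Pt e C a}
    (hq : ∀ i l, i < l → l < len e m.1 → gpair e w m.1 l = (gpair e w m.1 i).swap →
      zoom e w C a m i l q = (gpair e w m.1 i).1)
    (h : r (vert e w C a m v) q) :
    theta e w C a d (vert e w C a m v) (.base w) ∨ theta e w C a d (vert e w C a m v) .top := by
  by_cases h1 : ∃ i, Cut e w d.1.1 m.1 i ∧ 0 ≤ i ∧ i < v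
  · by_cases h2 : ∃ j, Cut e w d.1.1 m.1 j ∧ (j < 0 ∨ v ≤ j)
    · exfalso
      obtain ⟨i, l, hil, hl, hc, hg, hs⟩ := exists_fold h1 h2
      refine zoom_sep hbase hinv hil hl hc hg ?_ (hq i l hil hl hg) h
      rw [(zoom_vert hil hl hg m).1 rfl, if_pos (by omega)]
    · right
      have := theta_vert d m hv le_rfl fun ⟨j, hj, hvj, _⟩ => h2 ⟨j, hj, Or.inr hvj⟩
      rwa [vert_of_ge m le_rfl] at this
  · left
    exact Setoid.symm' _ (Setoid.trans' _ (theta_start d m) (theta_vert d m (Nat.zero_le v) hv h1))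

variable (d) in
/-- An end point or a vertex of a path. -/
def Skel (p : Pt e C a) : Prop :=
  (∃ z, theta e w C a d p (.base z)) ∨ theta e w C a d p .top ∨
    ∃ (m : MSet C a) (v : ℕ), v ≤ len e m.1 ∧ theta e w C a d p (vert e w C a m v)

theorem skel_or_interior (p : Pt e C a) :
    Skel (w := w) d p ∨ ∃ (m : MSet C a) (i : Fin (len e m.1)) (z : A), p = .seg m i z ∧
      ¬ e d.1.1 (gpair e w m.1 i).1 z ∧ ¬ e d.1.1 (gpair e w m.1 i).2 z := by
  cases p with
  | base z => exact Or.inl (Or.inl ⟨z, Setoid.refl' _ _⟩)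
  | top => exact Or.inl (Or.inr (Or.inl (Setoid.refl' _ _)))
  | seg m i z =>
    by_cases h1 : e d.1.1 (gpair e w m.1 i).1 z
    · refine Or.inl (Or.inr (Or.inr ⟨m, i.1, i.2.le, ?_⟩))
      rw [vert_of_lt m i.2]
      exact theta_inSeg d m i (Setoid.symm' _ h1)
    by_cases h2 : e d.1.1 (gpair e w m.1 i).2 z
    · exact Or.inl (Or.inr (Or.inr ⟨m, i.1 + 1, i.2,
        Setoid.trans' _ (theta_inSeg d m i (Setoid.symm' _ h2)) (EqvGen.rel _ _ (.glue m i))⟩))
    exact Or.inr ⟨m, i, z, rfl, h1, h2⟩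

include hbase hinv hflag in
theorem ends_rel {p q : Pt e C a} (hp : (∃ z, p = .base z) ∨ p = .top)
    (hq : (∃ z, q = .base z) ∨ q = .top) (h : r p q) : theta e w C a d p q := by
  have hx := retr_rel hbase hinv h
  rcases hp with ⟨z, rfl⟩ | rfl <;> rcases hq with ⟨z', rfl⟩ | rfl
  · exact theta_inBase d hx
  · exact Setoid.trans' _ (theta_inBase d hx) (EqvGen.rel _ _ (.flag (hflag
      (r.trans' ((hbase _ _).2 (Setoid.symm' _ hx)) h))))
  · exact Setoid.trans' _ (Setoid.symm' _ (EqvGen.rel _ _ (.flag (hflag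
      (r.trans' ((hbase _ _).2 hx) (r.symm' h)))))) (theta_inBase d hx)
  · exact Setoid.refl' _ _

include hbase hinv hflag hle in
/-- Vertices: related ones are glued. -/
theorem skel_rel {p q : Pt e C a} (hp : Skel (w := w) d p) (hq : Skel (w := w) d q) (h : r p q) :
    theta e w C a d p q := by
  -- reduce to the representatives
  have red : ∀ p' q', theta e w C a d p p' → theta e w C a d q q' →
      (r p' q' → theta e w C a d p' q') → theta e w C a d p q := fun p' q' h1 h2 h3 =>
    Setoid.trans' _ h1 (Setoid.trans' _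
      (h3 (r.trans' (r.symm' (hle h1)) (r.trans' h (hle h2)))) (Setoid.symm' _ h2))
  have end_zoom : ∀ (q : Pt e C a), ((∃ z, q = .base z) ∨ q = .top) → ∀ (m : MSet C a) (i l : ℕ),
      zoom e w C a m i l q = (gpair e w m.1 i).1 := by
    rintro q (⟨z, rfl⟩ | rfl) m i l <;> rfl
  have vert_end : ∀ (m : MSet C a) v, v ≤ len e m.1 → ∀ q, ((∃ z, q = .base z) ∨ q = .top) →
      r (vert e w C a m v) q → theta e w C a d (vert e w C a m v) q := by
    intro m v hv q hq hr
    rcases outside hbase hinv hv (fun i l _ _ _ => end_zoom q hq m i l) hr with h' | h'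
    · exact Setoid.trans' _ h' (ends_rel hbase hinv hflag (Or.inl ⟨w, rfl⟩) hq
        (r.trans' (r.symm' (hle h')) hr))
    · exact Setoid.trans' _ h' (ends_rel hbase hinv hflag (Or.inr rfl) hq
        (r.trans' (r.symm' (hle h')) hr))
  have sk : ∀ p, Skel (w := w) d p → (∃ p', ((∃ z, p' = Pt.base z) ∨ p' = .top) ∧
      theta e w C a d p p') ∨
      ∃ (m : MSet C a) (v : ℕ), v ≤ len e m.1 ∧ theta e w C a d p (vert e w C a m v) := by
    rintro p (⟨z, hz⟩ | ht | hv)
    · exact Or.inl ⟨_, Or.inl ⟨z, rfl⟩, hz⟩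
    · exact Or.inl ⟨_, Or.inr rfl, ht⟩
    · exact Or.inr hv
  rcases sk p hp with ⟨p', hp', h1⟩ | ⟨m, v, hv, h1⟩ <;>
    rcases sk q hq with ⟨q', hq', h2⟩ | ⟨m', u, hu, h2⟩
  · exact red p' q' h1 h2 (ends_rel hbase hinv hflag hp' hq')
  · exact red p' _ h1 h2 fun hr => Setoid.symm' _ (vert_end m' u hu p' hp' (r.symm' hr))
  · exact red _ q' h1 h2 (vert_end m v hv q' hq')
  · refine red _ _ h1 h2 fun hr => ?_
    by_cases hm : m' = m
    · subst hm
      rcases le_total v u with hvu | hvu
      · exact path_rel hbase hinv hflag hle hvu hu hr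
      · exact Setoid.symm' _ (path_rel hbase hinv hflag hle hvu hv (r.symm' hr))
    · rcases outside hbase hinv hv (fun i l hil hl hg => (zoom_vert hil hl hg m').2 hm) hr with h' | h'
      · exact Setoid.trans' _ h' (Setoid.symm' _ (vert_end m' u hu _ (Or.inl ⟨w, rfl⟩)
          (r.trans' (r.symm' hr) (hle h'))))
      · exact Setoid.trans' _ h' (Setoid.symm' _ (vert_end m' u hu _ (Or.inr rfl)
          (r.trans' (r.symm' hr) (hle h'))))

include hbase hinv hflag hle in
theorem eq_theta : r = theta e w C a d := by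
  refine le_antisymm (fun p q h => ?_) hle
  rcases skel_or_interior (w := w) (d := d) p with hp | ⟨m, i, z, rfl, h1, h2⟩
  · rcases skel_or_interior (w := w) (d := d) q with hq | ⟨m, i, z, rfl, h1, h2⟩
    · exact skel_rel hbase hinv hflag hle hp hq h
    · exact Setoid.symm' _ (interior hbase hinv h1 h2 (r.symm' h))
  · exact interior hbase hinv h1 h2 h

end

end Vale.P183.Gadget

namespace Vale.P183

open Gadget Relation

/-- Doubling a lower pseudo-interval preserves closed representability. -/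
theorem clo_lowerDoubled {L : Type} [PartialOrder L] (hL : Clo L) (C : Set L) (a : L)
    (hdown : ∀ x y, a ≤ x → x ≤ y → y ∈ C → x ∈ C) : Clo (LowerDoubled C a) := by
  classical
  obtain ⟨A, hA, hne, e, hc⟩ := hL
  have := Fintype.ofFinite A
  have := finite_setoid A
  have : Finite L := Finite.of_injective e e.injective
  let w : A := Classical.arbitrary A
  obtain ⟨b, hb⟩ := exists_bot hc
  have hbot : ∀ x, b ≤ x := fun x => e.le_iff_le.1 (hb ▸ bot_le)
  let d0 : LowerDoubled C a := ⟨(b, decide (a ≤ b ∧ b ∉ C)),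
    fun h => (of_decide_eq_true h).1, fun h h' => decide_eq_true ⟨h, h'⟩⟩
  have hd0 : ∀ d, d0 ≤ d := fun d => ⟨hbot _, by
    rcases Bool.eq_false_or_eq_true (decide (a ≤ b ∧ b ∉ C)) with h | h
    · show decide (a ≤ b ∧ b ∉ C) ≤ d.1.2
      obtain ⟨h1, h2⟩ := of_decide_eq_true h
      rw [h, d.2.2 (le_trans h1 (hbot _)) (fun hC => h2 (hdown _ _ h1 (hbot _) hC))]
    · show decide (a ≤ b ∧ b ∉ C) ≤ d.1.2
      rw [h]; exact Bool.false_le _⟩
  have : Nonempty (Pt e C a) := ⟨.base w⟩
  refine clo_of_raw (OrderEmbedding.ofMapLEIff (theta e w C a) (theta_le_iff hdown)) d0 hd0 ?_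
  intro r hr0 hr
  have hinv : ∀ F : Pt e C a → A,
      (∀ (d : LowerDoubled C a) p q, Gen e w C a d.1.1 d.1.2 p q → e d.1.1 (F p) (F q)) →
        Pres (fun p => Pt.base (F p)) r :=
    fun F hF => hr _ (fun d => pres_base hF d)
  obtain ⟨x, hx⟩ := hc (Setoid.comap Pt.base r) (fun f hf z z' hzz' => by
    have hF : ∀ (d : LowerDoubled C a) p q, Gen e w C a d.1.1 d.1.2 p q →
        e d.1.1 (f (retr w p)) (f (retr w q)) := fun d p q h => hf _ _ _ (retr_gen _ _ h)
    exact hinv _ hF _ _ hzz')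
  have hbase : ∀ z z', r (.base z) (.base z') ↔ e x z z' := fun z z' => by rw [hx]; exact Iff.rfl
  let f : Bool := decide (r (.base w) .top)
  have h1 : f = true → a ≤ x := by
    intro hf
    refine e.le_iff_le.1 fun s t hst => ?_
    by_cases hne : s = t
    · subst hne; exact Setoid.refl' _ _
    have hidx : ∀ m : MSet C a, ∃ i < len e m.1, gpair e w m.1 i = (s, t) := fun m =>
      exists_index (w := w) (p := (s, t)) hne (e.le_iff_le.2 m.2.1 hst)
    choose idx hidx1 hidx2 using hidx
    exact (hbase _ _).1 (hinv (chain idx s t)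
      (fun d p q => chain_gen d hst (fun m => ⟨hidx1 m, hidx2 m⟩)) _ _ (of_decide_eq_true hf))
  have hgen0 : ∀ p q, Gen e w C a d0.1.1 d0.1.2 p q → r p q := fun p q h => hr0 (EqvGen.rel _ _ h)
  have hseg : ∀ (m : MSet C a) (i : Fin (len e m.1)) z z', e x z z' →
      r (.seg m i z) (.seg m i z') := by
    intro m i z z' h
    exact hr (fun p => .seg m i (retr w p))
      (fun d p q hpq => theta_inSeg d m i (theta_retr d hpq)) (.base z) (.base z') ((hbase _ _).2 h)
  have h2 : a ≤ x → x ∉ C → f = true := by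
    intro hax hxC
    refine decide_eq_true ?_
    let m : MSet C a := ⟨x, hax, hxC⟩
    have step : ∀ v ≤ len e x, r (.base w) (vert e w C a m v) := by
      intro v hv
      induction v with
      | zero => exact hgen0 _ _ (.start m)
      | succ v ih =>
        refine r.trans' (ih (by omega)) ?_
        rw [vert_of_lt m (show v < len e m.1 by show v < len e x; omega)]
        exact r.trans' (hseg m _ _ _ (rel_gpair x v)) (hgen0 _ _ (.glue m _))
    have := step _ le_rfl
    rwa [vert_of_ge m le_rfl] at this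
  let d : LowerDoubled C a := ⟨(x, f), h1, h2⟩
  refine ⟨d, (eq_theta (d := d) hbase hinv (fun h => decide_eq_true h) ?_).symm⟩
  refine Setoid.eqvGen_le fun p q h => ?_
  cases h with
  | inBase h => exact (hbase _ _).2 h
  | inSeg m i h => exact hseg m i _ _ h
  | glue m i => exact hgen0 _ _ (.glue m i)
  | start m => exact hgen0 _ _ (.start m)
  | flag h => exact of_decide_eq_true h

end Vale.P183
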