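import Vale.Agent.P183.Double
import Mathlib.GroupTheory.SpecificGroups.Alternating.Simple
import Mathlib.Algebra.Group.Pi.Basic
import Mathlib.Data.Fintype.Perm

/-! P183: representable lattices are closed under duals (Kurzweil's power trick). -/

namespace Vale.P183.Dual

variable {T A : Type} [Group T] [IsSimpleGroup T]

/-- The constant-on-`r`-classes functions. -/
def cls (r : Setoid A) (f : A → T) : Prop := ∀ a b, r a b → f a = f b

/-- Two functions are related when their quotient is constant on `r`-classes. -/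
def cong (r : Setoid A) : Setoid (A → T) where
  r f g := cls r (f⁻¹ * g)
  iseqv :=
    { refl := fun f a b _ => by simp
      symm := fun {f g} h a b hab => by
        have := h a b hab
        simp only [Pi.mul_apply, Pi.inv_apply] at this ⊢
        have h' := congrArg (·⁻¹) this
        simpa using h'
      trans := fun {f g k} h h' a b hab => by
        have h1 := h a b hab
        have h2 := h' a b hab
        simp only [Pi.mul_apply, Pi.inv_apply] at h1 h2 ⊢
        calc (f a)⁻¹ * k a = ((f a)⁻¹ * g a) * ((g a)⁻¹ * k a) := by group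
          _ = ((f b)⁻¹ * g b) * ((g b)⁻¹ * k b) := by rw [h1, h2]
          _ = (f b)⁻¹ * k b := by group }

theorem cong_le_iff [Nontrivial T] {r r' : Setoid A} :
    cong (T := T) r ≤ cong r' ↔ r' ≤ r := by
  classical
  constructor
  · intro h a b hab
    by_contra hne
    obtain ⟨t, ht⟩ := exists_ne (1 : T)
    have h1 : cong (T := T) r 1 (fun c => if r a c then t else 1) := by
      intro c c' hcc
      have : r a c ↔ r a c' := ⟨fun h => r.trans' h hcc, fun h => r.trans' h (r.symm' hcc)⟩
      simp [this]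
    have h2 := h h1 a b hab
    simp [r.refl' a, hne] at h2
    exact ht h2
  · intro h f g hfg a b hab
    exact hfg a b (h hab)

variable (S : Subgroup (A → T)) (hconst : ∀ t : T, (fun _ => t) ∈ S)

/-- Points not separated by `S`. -/
def kerSetoid : Setoid A where
  r a b := ∀ f ∈ S, f a = f b
  iseqv := ⟨fun _ _ _ => rfl, fun h f hf => (h f hf).symm, fun h h' f hf => (h f hf).trans (h' f hf)⟩

/-- Values at `a` of members of `S` equal to `1` on `B`. -/
def valAt (a : A) (B : Finset A) : Subgroup T :=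
  Subgroup.map (Pi.evalMonoidHom (fun _ : A => T) a)
    (S ⊓ ⨅ b ∈ B, (Pi.evalMonoidHom (fun _ : A => T) b).ker)

variable {S}

theorem mem_valAt {a : A} {B : Finset A} {t : T} :
    t ∈ valAt S a B ↔ ∃ f ∈ S, (∀ b ∈ B, f b = 1) ∧ f a = t := by
  simp [valAt, Subgroup.mem_map, and_assoc]

include hconst in
theorem valAt_normal (a : A) (B : Finset A) : (valAt S a B).Normal := by
  refine ⟨fun t ht u => ?_⟩
  obtain ⟨f, hf, h1, rfl⟩ := mem_valAt.1 ht
  refine mem_valAt.2 ⟨(fun _ => u) * f * (fun _ => u)⁻¹,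
    mul_mem (mul_mem (hconst u) hf) (inv_mem (hconst u)), fun b hb => by simp [h1 b hb], by simp⟩

include hconst in
theorem valAt_eq_top (hT : ∃ t u : T, t * u ≠ u * t) (a : A) :
    ∀ B : Finset A, (∀ b ∈ B, ¬ kerSetoid S a b) → valAt S a B = ⊤ := by
  classical
  have single : ∀ b, ¬ kerSetoid S a b → valAt S a {b} = ⊤ := by
    intro b hb
    obtain ⟨f, hf, hne⟩ : ∃ f ∈ S, f a ≠ f b := by
      by_contra hc
      exact hb fun f hf => by_contra fun hne => hc ⟨f, hf, hne⟩
    refine ((valAt_normal hconst a {b}).eq_bot_or_eq_top).resolve_left fun hbot => ?_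
    have hmem : f a * (f b)⁻¹ ∈ valAt S a {b} :=
      mem_valAt.2 ⟨f * (fun _ => f b)⁻¹, mul_mem hf (inv_mem (hconst _)), by simp, by simp⟩
    rw [hbot, Subgroup.mem_bot] at hmem
    exact hne (mul_inv_eq_one.1 hmem)
  intro B
  induction B using Finset.induction_on with
  | empty =>
    intro _
    rw [eq_top_iff]
    exact fun t _ => mem_valAt.2 ⟨fun _ => t, hconst t, by simp, rfl⟩
  | @insert b B hb ih =>
    intro hB
    refine ((valAt_normal hconst a (insert b B)).eq_bot_or_eq_top).resolve_left fun hbot => ?_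
    obtain ⟨t, u, htu⟩ := hT
    obtain ⟨f, hf, hfB, hfa⟩ := mem_valAt.1
      ((ih fun c hc => hB c (Finset.mem_insert_of_mem hc)) ▸ Subgroup.mem_top t : t ∈ valAt S a B)
    obtain ⟨g, hg, hgb, hga⟩ := mem_valAt.1
      ((single b (hB b (Finset.mem_insert_self _ _))) ▸ Subgroup.mem_top u : u ∈ valAt S a {b})
    have hmem : t * u * t⁻¹ * u⁻¹ ∈ valAt S a (insert b B) :=
      mem_valAt.2 ⟨f * g * f⁻¹ * g⁻¹, mul_mem (mul_mem (mul_mem hf hg) (inv_mem hf)) (inv_mem hg),
        fun c hc => by
          rcases Finset.mem_insert.1 hc with rfl | hc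
          · simp [hgb c (Finset.mem_singleton_self _)]
          · simp [hfB c hc],
        by simp [hfa, hga]⟩
    rw [hbot, Subgroup.mem_bot] at hmem
    refine htu ?_
    calc t * u = (t * u * t⁻¹ * u⁻¹) * (u * t) := by group
      _ = u * t := by rw [hmem, one_mul]

include hconst in
theorem mem_of_cls [Fintype A] (hT : ∃ t u : T, t * u ≠ u * t) {f : A → T}
    (hf : cls (kerSetoid S) f) : f ∈ S := by
  classical
  induction hn : (Finset.univ.filter fun a => f a ≠ 1).card using Nat.strong_induction_on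
    generalizing f with
  | _ n ih =>
    by_cases h1 : f = 1
    · rw [h1]; exact one_mem S
    obtain ⟨a, ha⟩ : ∃ a, f a ≠ 1 := by
      by_contra hc
      exact h1 (funext fun a => by_contra fun h => hc ⟨a, h⟩)
    obtain ⟨δ, hδS, hδ1, hδa⟩ := mem_valAt.1
      ((valAt_eq_top hconst hT a (Finset.univ.filter fun b => ¬ kerSetoid S a b)
        (fun b hb => (Finset.mem_filter.1 hb).2)) ▸ Subgroup.mem_top (f a) : f a ∈ valAt S a _)
    have hsmall : ∀ b, (f * δ⁻¹) b ≠ 1 → f b ≠ 1 ∧ b ≠ a := by
      intro b hb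
      refine ⟨fun h => hb ?_, fun h => hb (by subst h; simp [hδa])⟩
      by_cases hab : kerSetoid S a b
      · exact absurd (hf a b hab ▸ h : f a = 1) ha
      · simp [h, hδ1 b (Finset.mem_filter.2 ⟨Finset.mem_univ _, hab⟩)]
    have hlt : (Finset.univ.filter fun b => (f * δ⁻¹) b ≠ 1).card < n := by
      rw [← hn]
      refine Finset.card_lt_card (Finset.ssubset_iff_subset_ne.2 ⟨fun b hb =>
        Finset.mem_filter.2 ⟨Finset.mem_univ _, (hsmall b (Finset.mem_filter.1 hb).2).1⟩, fun he => ?_⟩)
      have : a ∈ Finset.univ.filter fun b => (f * δ⁻¹) b ≠ 1 :=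
        he ▸ Finset.mem_filter.2 ⟨Finset.mem_univ _, ha⟩
      exact (hsmall a (Finset.mem_filter.1 this).2).2 rfl
    have hcls : cls (kerSetoid S) (f * δ⁻¹) := fun b c hbc => by
      simp [hf b c hbc, show δ b = δ c from hbc δ hδS]
    have := mul_mem (ih _ hlt hcls rfl) hδS
    simpa [mul_assoc] using this

end Vale.P183.Dual

namespace Vale.P183

open Dual

theorem exists_noncomm : ∃ t u : alternatingGroup (Fin 5), t * u ≠ u * t :=
  ⟨⟨Equiv.swap 0 1 * Equiv.swap 1 2, by rw [Equiv.Perm.mem_alternatingGroup]; decide⟩,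
    ⟨Equiv.swap 0 1 * Equiv.swap 1 3, by rw [Equiv.Perm.mem_alternatingGroup]; decide⟩, by decide⟩

/-- The dual of a representable lattice is representable. -/
theorem clo_orderDual {L : Type} [PartialOrder L] (hL : Clo L) : Clo Lᵒᵈ := by
  classical
  obtain ⟨A, hA, hne, e, hc⟩ := hL
  have := Fintype.ofFinite A
  let T := alternatingGroup (Fin 5)
  have hT : ∃ t u : T, t * u ≠ u * t := exists_noncomm
  have : IsSimpleGroup T := alternatingGroup.isSimpleGroup_five
  have : Nontrivial T := by
    obtain ⟨t, u, h⟩ := hT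
    exact nontrivial_of_ne _ _ h
  let e' : Lᵒᵈ ↪o Setoid (A → T) :=
    OrderEmbedding.ofMapLEIff (fun l => cong (e (OrderDual.ofDual l)))
      (fun l l' => by rw [cong_le_iff, e.le_iff_le]; exact OrderDual.ofDual_le_ofDual)
  obtain ⟨t, ht⟩ := exists_top hc
  refine clo_of_raw e' (OrderDual.toDual t)
    (fun l => e.le_iff_le.1 (show e (OrderDual.ofDual l) ≤ e t from ht ▸ le_top)) ?_
  intro θ hθ hinv
  have hleft : ∀ h f g : A → T, θ f g → θ (h * f) (h * g) := fun h f g hfg =>
    hinv (fun f => h * f) (fun l f g hfg a b hab => by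
      have := hfg a b hab
      simp only [Pi.mul_apply, Pi.inv_apply] at this ⊢
      simpa [mul_assoc] using this) f g hfg
  let S : Subgroup (A → T) :=
    { carrier := {f | θ 1 f}
      one_mem' := θ.refl' 1
      mul_mem' := fun {f g} hf hg => θ.trans' hf (by simpa using hleft f _ _ hg)
      inv_mem' := fun {f} hf => θ.symm' (by simpa using hleft f⁻¹ _ _ hf) }
  have hconst : ∀ u : T, (fun _ => u) ∈ S := fun u =>
    Setoid.le_def.1 hθ (show cong (e t) 1 (fun _ => u) from fun a b _ => by simp)
  obtain ⟨l, hl⟩ := hc (kerSetoid S) (fun g hg a b hab f hf => by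
    have hfg : θ ((1 : A → T) ∘ g) (f ∘ g) :=
      hinv (fun f => f ∘ g) (fun l f f' h a b hab => h (g a) (g b) (hg _ a b hab)) 1 f hf
    exact hab (f ∘ g) hfg)
  refine ⟨OrderDual.toDual l, Setoid.ext fun f g => ?_⟩
  show cong (e l) f g ↔ θ f g
  rw [hl]
  constructor
  · intro h
    have := hleft f _ _ (mem_of_cls hconst hT h : f⁻¹ * g ∈ S)
    simpa using this
  · intro h a b hab
    exact hab _ (show θ 1 (f⁻¹ * g) by simpa using hleft f⁻¹ _ _ h)

theorem clo_upperDoubled {L : Type} [PartialOrder L] (hL : Clo L) (C : Set L) (b : L)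
    (hup : ∀ x y, x ∈ C → x ≤ y → y ≤ b → y ∈ C) : Clo (UpperDoubled C b) := by
  have h := clo_orderDual (clo_lowerDoubled (clo_orderDual hL) (OrderDual.ofDual ⁻¹' C)
    (OrderDual.toDual b) (fun x y hax hxy hy => hup _ _ hy hxy hax))
  refine clo_congr ?_ h
  exact
    { toFun := fun p => ⟨(OrderDual.ofDual (OrderDual.ofDual p).1.1, !(OrderDual.ofDual p).1.2),
        fun h => (OrderDual.ofDual p).2.1 (by simpa using h),
        fun h h' => by simp [(OrderDual.ofDual p).2.2 h h']⟩
      invFun := fun p => OrderDual.toDual ⟨(OrderDual.toDual p.1.1, !p.1.2),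
        fun h => p.2.1 (by simpa using h), fun h h' => by simp [p.2.2 h h']⟩
      left_inv := fun p => by simp
      right_inv := fun p => by simp
      map_rel_iff' := by
        intro p q
        show (_ ≤ _ ∧ (!_) ≤ (!_)) ↔ (OrderDual.ofDual q) ≤ (OrderDual.ofDual p)
        constructor
        · rintro ⟨h1, h2⟩
          exact ⟨h1, by revert h2; cases (OrderDual.ofDual p).1.2 <;> cases (OrderDual.ofDual q).1.2 <;> simp⟩
        · rintro ⟨h1, h2⟩
          exact ⟨h1, by revert h2; cases (OrderDual.ofDual p).1.2 <;> cases (OrderDual.ofDual q).1.2 <;> simp⟩ }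

end Vale.P183
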