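import Vale.Agent.P183.Dual
import Mathlib.Order.Irreducible
import Mathlib.Data.Finset.Max

/-! P183: finite lower bounded lattices are representable. -/

namespace Vale.P183

theorem clo_of_unique (L : Type) [PartialOrder L] [Nonempty L] [Subsingleton L] : Clo L :=
  ⟨Unit, inferInstance, inferInstance,
    OrderEmbedding.ofMapLEIff (fun _ => (⊥ : Setoid Unit))
      (fun a b => iff_of_true le_rfl (Subsingleton.elim a b).le),
    fun r _ => ⟨Classical.arbitrary L, Setoid.ext fun a b => iff_of_true rfl (r.refl' a)⟩⟩

namespace LB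

variable {L : Type} [Lattice L] [OrderBot L]

/-- The join of the members of `I` below `x`. -/
noncomputable def proj (I : Finset L) (x : L) : L := by
  classical exact (I.filter (· ≤ x)).sup id

theorem proj_le (I : Finset L) (x : L) : proj I x ≤ x := by
  classical exact Finset.sup_le fun i hi => (Finset.mem_filter.1 hi).2

theorem le_proj {I : Finset L} {i x : L} (hi : i ∈ I) (h : i ≤ x) : i ≤ proj I x := by
  classical exact Finset.le_sup (f := id) (Finset.mem_filter.2 ⟨hi, h⟩)

theorem proj_mono (I : Finset L) {x y : L} (h : x ≤ y) : proj I x ≤ proj I y := by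
  classical
  exact Finset.sup_le fun i hi =>
    le_proj (Finset.mem_filter.1 hi).1 ((Finset.mem_filter.1 hi).2.trans h)

theorem proj_proj (I : Finset L) (x : L) : proj I (proj I x) = proj I x := by
  classical
  exact le_antisymm (proj_le _ _) (Finset.sup_le fun i hi =>
    le_proj (Finset.mem_filter.1 hi).1 (le_proj (Finset.mem_filter.1 hi).1 (Finset.mem_filter.1 hi).2))

theorem proj_subset {I I' : Finset L} (h : I ⊆ I') (x : L) : proj I x ≤ proj I' x := by
  classical exact Finset.sup_le fun i hi => le_proj (h (Finset.mem_filter.1 hi).1) (Finset.mem_filter.1 hi).2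

theorem clo_fix [Finite L] (rank : L → ℕ)
    (hr : ∀ p : L, SupIrred p → ∀ U : Finset L, p ≤ U.sup id → (¬ ∃ u ∈ U, p ≤ u) →
      ∃ V : Finset L, p ≤ V.sup id ∧ ∀ v ∈ V, SupIrred v ∧ rank v < rank p ∧ ∃ u ∈ U, v ≤ u) :
    ∀ (n : ℕ) (I : Finset L), I.card = n → (∀ i ∈ I, SupIrred i) →
      (∀ i ∈ I, ∀ k, SupIrred k → rank k < rank i → k ∈ I) →
      Clo {x : L // proj I x = x} := by
  classical
  intro n
  induction n with
  | zero =>
    intro I hI _ _
    rw [Finset.card_eq_zero] at hI
    subst hI
    have h0 : ∀ x : L, proj (∅ : Finset L) x = ⊥ := fun x => by simp [proj]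
    have : Nonempty {x : L // proj (∅ : Finset L) x = x} := ⟨⟨⊥, h0 _⟩⟩
    have : Subsingleton {x : L // proj (∅ : Finset L) x = x} :=
      ⟨fun p q => Subtype.ext (by rw [← p.2, ← q.2, h0, h0])⟩
    exact clo_of_unique _
  | succ n ih =>
    intro I' hI hirr hinit
    obtain ⟨j, hj, hmax⟩ := Finset.exists_max_image I' rank (Finset.card_pos.1 (by omega))
    set I := I'.erase j with hIdef
    have hsub : I ⊆ I' := Finset.erase_subset _ _
    have hI' : I' = insert j I := (Finset.insert_erase hj).symm
    have hinitI : ∀ i ∈ I, ∀ k, SupIrred k → rank k < rank i → k ∈ I := fun i hi k hk hlt =>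
      Finset.mem_erase.2 ⟨fun he => by have := hmax i (hsub hi); rw [he] at hlt; omega,
        hinit i (hsub hi) k hk hlt⟩
    have hK := ih I (by rw [hIdef, Finset.card_erase_of_mem hj]; omega)
      (fun i hi => hirr i (hsub hi)) hinitI
    let a : {x : L // proj I x = x} := ⟨proj I j, proj_proj _ _⟩
    let C : Set {x : L // proj I x = x} := {k | a ≤ k ∧ ¬ j ≤ k.1}
    refine clo_congr ?_ (clo_lowerDoubled hK C a fun x y hax hxy hy =>
      ⟨hax, fun h => hy.2 (h.trans hxy)⟩)
    -- key: nothing new of `I` lies below `k ⊔ j`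
    have key : ∀ k : {x : L // proj I x = x}, a ≤ k → proj I (k.1 ⊔ j) = k.1 := by
      intro k hak
      refine le_antisymm (Finset.sup_le fun i hi => ?_) (k.2.symm.le.trans (proj_mono I le_sup_left))
      obtain ⟨hiI, hile⟩ := Finset.mem_filter.1 hi
      by_cases hik : i ≤ k.1
      · exact hik
      by_cases hij : i ≤ j
      · exact (le_proj hiI hij).trans hak
      obtain ⟨V, hV, hV'⟩ := hr i (hirr i (hsub hiI)) {k.1, j} (by simpa using hile)
        (by simp [hik, hij])
      refine hV.trans (Finset.sup_le fun v hv => ?_)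
      obtain ⟨hvi, hvr, u, hu, hvu⟩ := hV' v hv
      rcases Finset.mem_insert.1 hu with rfl | hu
      · exact hvu
      · exact (le_proj (hinitI i hiI v hvi hvr) (Finset.mem_singleton.1 hu ▸ hvu)).trans hak
    have hfix : ∀ x, proj I' x = x → x = if j ≤ x then proj I x ⊔ j else proj I x := by
      intro x hx
      split
      · next h =>
        refine le_antisymm ?_ (sup_le (proj_le _ _) h)
        nth_rewrite 1 [← hx]
        refine Finset.sup_le fun i hi => ?_
        obtain ⟨hi, hix⟩ := Finset.mem_filter.1 hi
        rw [hI', Finset.mem_insert] at hi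
        rcases hi with rfl | hi
        · exact le_sup_right
        · exact (le_proj hi hix).trans le_sup_left
      · next h =>
        refine le_antisymm ?_ (proj_le _ _)
        nth_rewrite 1 [← hx]
        refine Finset.sup_le fun i hi => ?_
        obtain ⟨hi, hix⟩ := Finset.mem_filter.1 hi
        rw [hI', Finset.mem_insert] at hi
        rcases hi with rfl | hi
        · exact absurd hix h
        · exact le_proj hi hix
    let ψ : LowerDoubled C a → {x : L // proj I' x = x} := fun d =>
      ⟨if d.1.2 then d.1.1.1 ⊔ j else d.1.1.1, by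
        refine le_antisymm (proj_le _ _) ?_
        split
        · exact sup_le ((d.1.1.2.symm.le.trans (proj_subset hsub _)).trans (proj_mono _ le_sup_left))
            (le_proj hj le_sup_right)
        · exact d.1.1.2.symm.le.trans (proj_subset hsub _)⟩
    let φ : {x : L // proj I' x = x} → LowerDoubled C a := fun x =>
      ⟨(⟨proj I x.1, proj_proj _ _⟩, decide (j ≤ x.1)),
        fun h => proj_mono I (of_decide_eq_true h),
        fun h h' => decide_eq_true ((by_contra fun hh => h' ⟨h, hh⟩ : j ≤ proj I x.1).trans (proj_le _ _))⟩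
    have hψφ : ∀ x, ψ (φ x) = x := fun x => Subtype.ext (by
      show (if decide (j ≤ x.1) = true then proj I x.1 ⊔ j else proj I x.1) = x.1
      simp only [decide_eq_true_eq]
      exact (hfix x.1 x.2).symm)
    have hφψ : ∀ d, φ (ψ d) = d := by
      rintro ⟨⟨k, f⟩, h1, h2⟩
      cases f with
      | false =>
        have hjk : ¬ j ≤ k.1 := fun h => by
          have hak : a ≤ k := (proj_le I j).trans h
          exact absurd (h2 hak fun hC => hC.2 h) (by simp)
        apply Subtype.ext
        refine Prod.ext (Subtype.ext k.2) ?_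
        simp [φ, ψ, hjk]
      | true =>
        apply Subtype.ext
        refine Prod.ext (Subtype.ext (key k (h1 rfl))) ?_
        simp [φ, ψ]
    refine Equiv.toOrderIso ⟨ψ, φ, hφψ, hψφ⟩ (fun d d' hd => ?_) (fun x y h => ?_)
    · show (if d.1.2 then d.1.1.1 ⊔ j else d.1.1.1) ≤ if d'.1.2 then d'.1.1.1 ⊔ j else d'.1.1.1
      have h1 : d.1.1.1 ≤ d'.1.1.1 := hd.1
      have h2 : d.1.2 ≤ d'.1.2 := hd.2
      rcases hb : d.1.2 with _ | _ <;> rcases hb' : d'.1.2 with _ | _
      · simpa using h1
      · simpa using h1.trans le_sup_left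
      · rw [hb, hb'] at h2; exact absurd h2 (by decide)
      · simpa using sup_le_sup_right h1 j
    · refine ⟨proj_mono I (show x.1 ≤ y.1 from h), ?_⟩
      show decide (j ≤ x.1) ≤ decide (j ≤ y.1)
      by_cases hx : j ≤ x.1
      · simp [hx, hx.trans (show x.1 ≤ y.1 from h)]
      · simp [hx]

end LB

theorem clo_lowerBounded (L : Type) [Lattice L] [OrderBot L] [Finite L] (h : IsLowerBounded L) :
    Clo L := by
  classical
  have := Fintype.ofFinite L
  obtain ⟨rank, hr⟩ := h
  set I := (Finset.univ : Finset L).filter SupIrred with hI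
  have hall : ∀ x : L, LB.proj I x = x := by
    intro x
    obtain ⟨s, hs, hirr⟩ := exists_supIrred_decomposition x
    refine le_antisymm (LB.proj_le _ _) ?_
    nth_rewrite 1 [← hs]
    exact Finset.sup_le fun i hi => LB.le_proj (Finset.mem_filter.2 ⟨Finset.mem_univ _, hirr hi⟩)
      (hs ▸ Finset.le_sup (f := id) hi)
  refine clo_congr ?_ (LB.clo_fix rank hr _ I rfl (fun i hi => (Finset.mem_filter.1 hi).2)
    (fun i _ k hk _ => Finset.mem_filter.2 ⟨Finset.mem_univ _, hk⟩))
  exact { toFun := Subtype.val, invFun := fun x => ⟨x, hall x⟩, left_inv := fun x => rfl,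
          right_inv := fun x => rfl, map_rel_iff' := Iff.rfl }

end Vale.P183
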